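import Vale.Agent.P078.AllMasa.FromVN
import Vale.Agent.P078.AllMasa.Singular
import Vale.Agent.P078.Tracial.Semifinite

/-! Projections of `A` carrying a faithful normal central functional, their supremum, and paving
in their corners. -/

namespace Vale.Agent.P078.AllMasa

open Filter Topology
open scoped InnerProductSpace
open Vale.Agent.P078 Vale.Agent.P078.InM Vale.Agent.P078.Tracial

variable {H : Type} [NormedAddCommGroup H] [InnerProductSpace ℂ H] [CompleteSpace H]
variable {M : VonNeumannAlgebra H} {A : StarSubalgebra ℂ (H →L[ℂ] H)}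

/-- A projection of `A` that carries a faithful normal central functional, given by vectors. -/
structure Good (M : VonNeumannAlgebra H) (A : StarSubalgebra ℂ (H →L[ℂ] H)) (p : H →L[ℂ] H) :
    Prop where
  mem : p ∈ A
  proj : IsStarProjection p
  vectors : ∃ ξ : ℕ → H, IsCentral M A ξ ∧ (∀ n, p (ξ n) = ξ n) ∧
    ∀ x ∈ M, (∀ n, x (ξ n) = 0) → x * p = 0

lemma good_zero : Good M A 0 where
  mem := zero_mem A
  proj := IsStarProjection.zero _
  vectors := ⟨0, ⟨by simp, fun a _ x _ => by simp⟩, fun n => by simp, fun x _ _ => mul_zero x⟩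

lemma join_mul_left (hA : MasaIn M A) {p q : H →L[ℂ] H} (hpA : p ∈ A) (hp : IsStarProjection p)
    (hqA : q ∈ A) : (p + q - p * q) * p = p := by
  rw [sub_mul, add_mul, hp.isIdempotentElem.eq, mul_assoc, (hA.comm _ hqA _ hpA).eq, ← mul_assoc,
    hp.isIdempotentElem.eq, add_sub_cancel_right]

omit [CompleteSpace H] in
lemma join_mul_right {p q : H →L[ℂ] H}
    (hq : IsIdempotentElem q) : (p + q - p * q) * q = q := by
  rw [sub_mul, add_mul, hq.eq, mul_assoc, hq.eq, add_sub_cancel_left]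

lemma IsCentral.map (hA : MasaIn M A) {η : ℕ → H} (hη : IsCentral M A η) {q : H →L[ℂ] H}
    (hqA : q ∈ A) (hq : IsStarProjection q) : IsCentral M A fun n => q (η n) := by
  refine ⟨Summable.of_nonneg_of_le (fun n => sq_nonneg _)
    (fun n => pow_le_pow_left₀ (norm_nonneg _) (proj_norm_apply_le hq _) 2) hη.1,
    fun a ha x hx => ?_⟩
  have hqM := hA.le q hqA
  have h := hη.2 a ha (q * x * q) (mul_mem (mul_mem hqM hx) hqM)
  have e1 : a * (q * x * q) = q * (a * x) * q := by
    rw [← mul_assoc, ← mul_assoc, (hA.comm _ ha _ hqA).eq, mul_assoc q a x]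
  have e2 : q * x * q * a = q * (x * a) * q := by
    simp only [mul_assoc, (hA.comm _ ha _ hqA).eq]
  rw [e1, e2] at h
  have key : ∀ T : H →L[ℂ] H, ∀ n, ⟪q (η n), T (q (η n))⟫_ℂ = ⟪η n, (q * T * q) (η n)⟫_ℂ :=
    fun T n => sa_inner hq.isSelfAdjoint _ _
  simp only [key]
  exact h

omit [CompleteSpace H] in
lemma summable_inner {ξ : ℕ → H} (hs : Summable fun n => ‖ξ n‖ ^ 2) (T : H →L[ℂ] H) :
    Summable fun n => ⟪ξ n, T (ξ n)⟫_ℂ :=
  Summable.of_norm_bounded (hs.mul_left ‖T‖) fun n => by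
    refine (norm_inner_le_norm _ _).trans ?_
    calc _ ≤ ‖ξ n‖ * (‖T‖ * ‖ξ n‖) := mul_le_mul_of_nonneg_left (T.le_opNorm _) (norm_nonneg _)
      _ = _ := by ring

lemma Good.join (hA : MasaIn M A) {p q : H →L[ℂ] H} (hp : Good M A p) (hq : Good M A q) :
    Good M A (p + q - p * q) := by
  obtain ⟨ξ, hξ, hξp, hξf⟩ := hp.vectors
  obtain ⟨η, hη, hηq, hηf⟩ := hq.vectors
  have hc : p * q = q * p := hA.comm _ hp.mem _ hq.mem
  set q' := (1 - p) * q with hq'
  have hq'A : q' ∈ A := mul_mem (sub_mem (one_mem A) hp.mem) hq.mem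
  have hq'p : IsStarProjection q' :=
    hp.proj.one_sub.mul hq.proj (hA.comm _ (sub_mem (one_mem A) hp.mem) _ hq.mem)
  have hr : p + q - p * q = p + q' := by rw [hq', sub_mul, one_mul]; abel
  have hpq' : p * q' = 0 := by
    rw [hq', ← mul_assoc, mul_sub, mul_one, hp.proj.isIdempotentElem.eq, sub_self, zero_mul]
  have hq'p0 : q' * p = 0 := by rw [(hA.comm _ hq'A _ hp.mem).eq, hpq']
  have hq'q : q' * q = q' := by rw [hq', mul_assoc, hq.proj.isIdempotentElem.eq]
  have hc2 := hη.map hA hq'A hq'p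
  let e : ℕ ⊕ ℕ ≃ ℕ := Equiv.natSumNatEquivNat
  let ζ : ℕ → H := fun n => Sum.elim ξ (fun k => q' (η k)) (e.symm n)
  have hsum : ∀ {α : Type} [AddCommMonoid α] [TopologicalSpace α] [ContinuousAdd α] (G : H → α)
      {a b : α}, HasSum (fun n => G (ξ n)) a → HasSum (fun n => G (q' (η n))) b →
      HasSum (fun n => G (ζ n)) (a + b) := by
    intro α _ _ _ G a b ha hb
    exact (e.symm.hasSum_iff (f := fun s => G (Sum.elim ξ (fun k => q' (η k)) s))).2 (ha.sum hb)
  refine ⟨sub_mem (add_mem hp.mem hq.mem) (mul_mem hp.mem hq.mem), ?_, ζ,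
    ⟨(hsum (fun v => ‖v‖ ^ 2) hξ.1.hasSum hc2.1.hasSum).summable, fun a ha x hx => ?_⟩,
    fun n => ?_, fun x hx h0 => ?_⟩
  · rw [hr]
    refine ⟨?_, hp.proj.isSelfAdjoint.add hq'p.isSelfAdjoint⟩
    show (p + q') * (p + q') = p + q'
    rw [add_mul, mul_add, mul_add, hp.proj.isIdempotentElem.eq, hq'p.isIdempotentElem.eq, hpq',
      hq'p0, add_zero, zero_add]
  · have h : ∀ T : H →L[ℂ] H, ∑' n, ⟪ζ n, T (ζ n)⟫_ℂ =
        ∑' n, ⟪ξ n, T (ξ n)⟫_ℂ + ∑' n, ⟪q' (η n), T (q' (η n))⟫_ℂ := fun T =>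
      (hsum (fun v => ⟪v, T v⟫_ℂ) (summable_inner hξ.1 T).hasSum
        (summable_inner hc2.1 T).hasSum).tsum_eq
    rw [h, h, hξ.2 a ha x hx, hc2.2 a ha x hx]
  · rw [hr]
    simp only [ζ]
    rcases e.symm n with k | k
    · rw [Sum.elim_inl, _root_.add_apply, hξp]
      have : q' (ξ k) = 0 := by rw [← hξp k, ← op_mul_apply, hq'p0]; rfl
      rw [this, add_zero]
    · rw [Sum.elim_inr, _root_.add_apply, proj_apply_apply hq'p, ← op_mul_apply, hpq']
      simp
  · have h1 : x * p = 0 := hξf x hx fun k => by simpa [ζ] using h0 (e (Sum.inl k))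
    have h2 : x * q' * q = 0 := hηf _ (mul_mem hx (hA.le _ hq'A)) fun k => by
      simpa [ζ] using h0 (e (Sum.inr k))
    rw [hr, mul_add, h1, zero_add, ← hq'q, ← mul_assoc, h2]

/-- The vectors of a central functional lie in a good projection of `A`. -/
lemma exists_good_support (hA : MasaIn M A) {ξ : ℕ → H} (hξ : IsCentral M A ξ) :
    ∃ p, Good M A p ∧ ∀ n, p (ξ n) = ξ n := by
  let K₀ : Submodule ℂ H := Submodule.span ℂ {v | ∃ b ∈ M.commutant, ∃ n, b (ξ n) = v}
  let K : Submodule ℂ H := K₀.topologicalClosure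
  have : CompleteSpace K := K₀.isClosed_topologicalClosure.completeSpace_coe
  have hgen : ∀ b ∈ M.commutant, ∀ n, b (ξ n) ∈ K := fun b hb n =>
    K₀.le_topologicalClosure (Submodule.subset_span ⟨b, hb, n, rfl⟩)
  have hξK : ∀ n, ξ n ∈ K := fun n => hgen 1 (one_mem _) n
  have hext : ∀ g : H →L[ℂ] H, (∀ b ∈ M.commutant, ∀ n, g (b (ξ n)) ∈ K) → ∀ v ∈ K, g v ∈ K := by
    intro g hg
    have h0 : K₀ ≤ K.comap g.toLinearMap :=
      Submodule.span_le.2 (by rintro _ ⟨b, hb, n, rfl⟩; exact hg b hb n)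
    exact fun v hv => Submodule.topologicalClosure_minimal _ h0
      (IsClosed.preimage g.continuous K₀.isClosed_topologicalClosure) hv
  have hK' : ∀ g ∈ M.commutant, ∀ v ∈ K, g v ∈ K := fun g hg => hext g fun b hb n => by
    rw [← op_mul_apply]; exact hgen _ (mul_mem hg hb) n
  set P := K.starProjection with hP
  have hPp : IsStarProjection P := isStarProjection_starProjection
  have hPM : P ∈ M := by
    refine vn_mem_iff.2 fun g hg => ?_
    ext v
    show g (K.starProjection v) = K.starProjection (g v)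
    refine (Submodule.eq_starProjection_of_mem_of_inner_eq_zero
      (hK' g hg _ (K.starProjection_apply_mem v)) fun u hu => ?_).symm
    rw [← map_sub, ← ContinuousLinearMap.adjoint_inner_right]
    refine Submodule.starProjection_inner_eq_zero v _ ?_
    rw [← ContinuousLinearMap.star_eq_adjoint]
    exact hK' _ (star_mem hg) u hu
  have hPξ : ∀ n, P (ξ n) = ξ n := fun n => Submodule.starProjection_eq_self_iff.2 (hξK n)
  have haK : ∀ a ∈ A, ∀ n, a (ξ n) ∈ K := by
    intro a ha
    set Q := 1 - P with hQ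
    have hQp : IsStarProjection Q := hPp.one_sub
    have haM := hA.le a ha
    have h := hξ.2 (star a) (star_mem (R := H →L[ℂ] H) ha) (Q * a)
      (mul_mem (sub_mem (one_mem M) hPM) haM)
    have hl : ∀ n, ⟪ξ n, (star a * (Q * a)) (ξ n)⟫_ℂ = ((‖Q (a (ξ n))‖ ^ 2 : ℝ) : ℂ) := fun n => by
      rw [op_mul_apply, op_mul_apply, ContinuousLinearMap.star_eq_adjoint,
        ContinuousLinearMap.adjoint_inner_right]
      nth_rewrite 1 [← proj_apply_apply hQp (a (ξ n))]
      rw [← sa_inner hQp.isSelfAdjoint, inner_self_eq_norm_sq_to_K]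
      simp
    have hr : ∀ n, ⟪ξ n, (Q * a * star a) (ξ n)⟫_ℂ = 0 := fun n => by
      rw [mul_assoc, op_mul_apply, ← sa_inner hQp.isSelfAdjoint, hQ, _root_.sub_apply,
        one_apply_eq_self, hPξ, sub_self, inner_zero_left]
    simp only [hl, hr, tsum_zero, ← Complex.ofReal_tsum, Complex.ofReal_eq_zero] at h
    have hs : Summable fun n => ‖Q (a (ξ n))‖ ^ 2 := by
      refine Summable.of_nonneg_of_le (fun n => sq_nonneg _) (fun n => ?_)
        (hξ.1.mul_left (‖Q * a‖ ^ 2))
      rw [← mul_pow, ← op_mul_apply]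
      exact pow_le_pow_left₀ (norm_nonneg _) ((Q * a).le_opNorm _) 2
    intro n
    have h0 := congrFun ((hasSum_zero_iff_of_nonneg fun n => sq_nonneg ‖Q (a (ξ n))‖).1
      (h ▸ hs.hasSum)) n
    simp only [Pi.zero_apply, sq_eq_zero_iff, norm_eq_zero, hQ, _root_.sub_apply,
      one_apply_eq_self, sub_eq_zero] at h0
    exact Submodule.starProjection_eq_self_iff.1 h0.symm
  have hK : ∀ g ∈ A, ∀ v ∈ K, g v ∈ K := fun g hg => hext g fun b hb n => by
    rw [← op_mul_apply, ← (comm_commutant (hA.le g hg) hb).eq, op_mul_apply]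
    exact hK' b hb _ (haK g hg n)
  refine ⟨P, ⟨InM.starProjection_mem hA K hK hK', hPp, ξ, hξ, hPξ, fun x hx h0 => ?_⟩, hPξ⟩
  have h1 : K ≤ LinearMap.ker x.toLinearMap := by
    refine Submodule.topologicalClosure_minimal _ (Submodule.span_le.2 ?_)
      (ContinuousLinearMap.isClosed_ker x)
    rintro _ ⟨b, hb, n, rfl⟩
    show x (b (ξ n)) = 0
    rw [← op_mul_apply, ← (comm_commutant hx hb).eq, op_mul_apply, h0, map_zero]
  ext v
  exact h1 (K.starProjection_apply_mem v)

/-- The largest projection of `A` that is a supremum of good projections. -/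
lemma exists_goodPart (hA : MasaIn M A) (F : Finset H) {δ : ℝ} (hδ : 0 < δ) :
    ∃ z ∈ A, IsStarProjection z ∧ (∀ p, Good M A p → p * (1 - z) = 0) ∧
      ∃ p, Good M A p ∧ z * p = p ∧ ∀ v ∈ F, ‖z v - p v‖ < δ := by
  classical
  let J := {p : H →L[ℂ] H // Good M A p}
  have hJ : Nonempty J := ⟨⟨0, good_zero⟩⟩
  have hdir : ∀ p q : J, ∃ r : J, r.1 * p.1 = p.1 ∧ r.1 * q.1 = q.1 := by
    rintro ⟨p, hp⟩ ⟨q, hq⟩
    refine ⟨⟨_, hp.join hA hq⟩, join_mul_left hA hp.mem hp.proj hq.mem,
      join_mul_right hq.proj.isIdempotentElem⟩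
  have hle : ∀ {p q : H →L[ℂ] H}, q * p = p → fixedSpace p ≤ fixedSpace q := fun {p q} h v hv => by
    rw [mem_fixedSpace] at hv ⊢
    rw [← hv, ← op_mul_apply, h]
  let K₀ : Submodule ℂ H := ⨆ p : J, fixedSpace p.1
  let K : Submodule ℂ H := K₀.topologicalClosure
  have : CompleteSpace K := K₀.isClosed_topologicalClosure.completeSpace_coe
  have hinv : ∀ g : H →L[ℂ] H, (∀ p : J, g * p.1 = p.1 * g) → ∀ v ∈ K, g v ∈ K := by
    intro g hg
    have h0 : K₀ ≤ K.comap g.toLinearMap := iSup_le fun p v hv => by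
      refine K₀.le_topologicalClosure ((le_iSup (fun p : J => fixedSpace p.1) p) ?_)
      rw [mem_fixedSpace] at hv ⊢
      show p.1 (g v) = g v
      rw [← op_mul_apply, ← hg, op_mul_apply, hv]
    exact fun v hv => Submodule.topologicalClosure_minimal _ h0
      (IsClosed.preimage g.continuous K₀.isClosed_topologicalClosure) hv
  have hzA : K.starProjection ∈ A := InM.starProjection_mem hA K
    (fun g hg => hinv g fun p => (hA.comm _ hg _ p.2.mem).eq)
    (fun g hg => hinv g fun p => (comm_commutant (hA.le _ p.2.mem) hg).symm.eq.symm)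
  have hz : IsStarProjection K.starProjection := isStarProjection_starProjection
  have hzp : ∀ p : J, K.starProjection * p.1 = p.1 := fun p => by
    ext v
    refine Submodule.starProjection_eq_self_iff.2 (K₀.le_topologicalClosure
      ((le_iSup (fun p : J => fixedSpace p.1) p) ?_))
    rw [mem_fixedSpace]
    exact proj_apply_apply p.2.proj v
  refine ⟨_, hzA, hz, fun p hp => ?_, ?_⟩
  · rw [mul_sub, mul_one, (hA.comm _ hp.mem _ hzA).eq, hzp ⟨p, hp⟩, sub_self]
  have mono : ∀ {p r : J} (v : H), r.1 * p.1 = p.1 →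
      ‖K.starProjection v - r.1 v‖ ≤ ‖K.starProjection v - p.1 v‖ := by
    intro p r v h
    have hr : r.1 * K.starProjection = r.1 := by rw [(hA.comm _ r.2.mem _ hzA).eq, hzp r]
    have : K.starProjection v - r.1 v = (1 - r.1) (K.starProjection v - p.1 v) := by
      rw [_root_.sub_apply, one_apply_eq_self, map_sub, ← op_mul_apply r.1, hr,
        ← op_mul_apply r.1, h]
      abel
    rw [this]
    exact proj_norm_apply_le r.2.proj.one_sub _
  have one : ∀ v : H, ∃ p : J, ‖K.starProjection v - p.1 v‖ < δ := by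
    intro v
    obtain ⟨u, hu, hd⟩ := Metric.mem_closure_iff.1
      (show K.starProjection v ∈ closure (K₀ : Set H) from K.starProjection_apply_mem v) δ hδ
    have hdd : Directed (· ≤ ·) fun p : J => fixedSpace p.1 := fun p q => by
      obtain ⟨r, h1, h2⟩ := hdir p q
      exact ⟨r, hle h1, hle h2⟩
    obtain ⟨p, hp⟩ := (Submodule.mem_iSup_of_directed _ hdd).1 hu
    refine ⟨p, ?_⟩
    have hpz : p.1 * K.starProjection = p.1 := by rw [(hA.comm _ p.2.mem _ hzA).eq, hzp p]
    have : K.starProjection v - p.1 v = (1 - p.1) (K.starProjection v - u) := by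
      rw [_root_.sub_apply, one_apply_eq_self, map_sub, ← op_mul_apply p.1, hpz,
        mem_fixedSpace.1 hp]
      abel
    rw [this]
    refine (proj_norm_apply_le p.2.proj.one_sub _).trans_lt ?_
    rwa [← dist_eq_norm]
  suffices ∃ p : J, ∀ v ∈ F, ‖K.starProjection v - p.1 v‖ < δ by
    obtain ⟨⟨p, hp⟩, h⟩ := this
    exact ⟨p, hp, hzp ⟨p, hp⟩, h⟩
  induction F using Finset.induction with
  | empty => exact ⟨hJ.some, fun v hv => absurd hv (Finset.notMem_empty v)⟩
  | insert b F _ ih =>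
    obtain ⟨p, hp⟩ := ih
    obtain ⟨q, hq⟩ := one b
    obtain ⟨r, h1, h2⟩ := hdir p q
    refine ⟨r, fun v hv => ?_⟩
    rcases Finset.mem_insert.1 hv with rfl | hv
    · exact (mono v h2).trans_lt hq
    · exact (mono v h1).trans_lt (hp v hv)

/-- Paving inside the corner of a good projection. -/
theorem exists_paving_good (hA : MasaIn M A) {p : H →L[ℂ] H} (hg : Good M A p) (hp0 : p ≠ 0)
    {ε : ℝ} (hε : 0 < ε) {N : ℕ} (hpav : PavingConclusion (ε / 2) N)
    {y : H →L[ℂ] H} (hy : y ∈ M) (hys : IsSelfAdjoint y) (F : Finset H) {δ : ℝ} (hδ : 0 < δ) :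
    ∃ (P : Fin N → (H →L[ℂ] H)) (a q : H →L[ℂ] H),
      IsPart A p P ∧ a ∈ A ∧ IsSelfAdjoint a ∧ ‖a‖ ≤ ‖y‖ ∧ a * p = a ∧ p * a = a ∧
      q ∈ M ∧ IsStarProjection q ∧ q * p = q ∧ p * q = q ∧ (∀ v ∈ F, ‖p v - q v‖ < δ) ∧
      ‖q * (pinch P y - a) * q‖ ≤ ε * ‖y‖ := by
  classical
  have hpA := hg.mem
  have hp := hg.proj
  have hpM := hA.le _ hpA
  obtain ⟨ξ, hξ, hξp, hξf⟩ := hg.vectors
  set t : ℝ := ∑' n, ‖ξ n‖ ^ 2 with ht
  have htpos : 0 < t := by
    obtain ⟨n, hn⟩ : ∃ n, ξ n ≠ 0 := by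
      by_contra hh
      push Not at hh
      refine hp0 ?_
      rw [← hp.isIdempotentElem.eq]
      exact hξf p hpM fun n => by rw [hh n, map_zero]
    exact hξ.1.tsum_pos (fun _ => sq_nonneg _) n (by positivity)
  set c : ℂ := (((Real.sqrt t)⁻¹ : ℝ) : ℂ) with hc
  have hcc : ‖c‖ ^ 2 = t⁻¹ := by
    rw [hc, Complex.norm_real, Real.norm_eq_abs, sq_abs, inv_pow, Real.sq_sqrt htpos.le]
  let η : ℕ → fixedSpace p := fun n => c • ⟨ξ n, mem_fixedSpace.2 (hξp n)⟩
  have hinf : ∀ T n, (T (η n) : H) = c • inflate hp T (ξ n) := fun T n => by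
    rw [inflate_apply, map_smul, Submodule.coe_smul]
    congr 3
    exact Subtype.ext (hξp n).symm
  have hη : StateVectors (cornerVN M hp) (cornerAlg hp hpA) η := by
    have hn : ∀ n, ‖η n‖ ^ 2 = t⁻¹ * ‖ξ n‖ ^ 2 := fun n => by
      rw [norm_smul, mul_pow, hcc]; rfl
    refine ⟨?_, ?_, fun a ha x hx => ?_, fun x hx h0 => ?_⟩
    · simp only [hn]; exact hξ.1.mul_left _
    · simp only [hn, tsum_mul_left]
      rw [← ht, inv_mul_cancel₀ htpos.ne']
    · have h := hξ.2 _ ha (inflate hp x) ((mem_cornerVN hp hpM).1 hx)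
      rw [← inflate_mul, ← inflate_mul] at h
      have key : ∀ T n, ⟪η n, T (η n)⟫_ℂ = starRingEnd ℂ c * c * ⟪ξ n, inflate hp T (ξ n)⟫_ℂ :=
        fun T n => by
          rw [Submodule.coe_inner, hinf]
          show ⟪c • ξ n, _⟫_ℂ = _
          rw [inner_smul_left, inner_smul_right, mul_assoc]
      simp only [key, tsum_mul_left, h]
    · have hall : inflate hp x * p = 0 := hξf _ ((mem_cornerVN hp hpM).1 hx) fun n => by
        have h1 := hinf x n
        rw [h0 n, ZeroMemClass.coe_zero] at h1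
        refine (smul_eq_zero.1 h1.symm).resolve_left ?_
        rw [hc, Complex.ofReal_eq_zero]
        exact inv_ne_zero (Real.sqrt_pos.2 htpos).ne'
      rw [inflate_mul_proj] at hall
      ext1 k
      apply Subtype.ext
      have := congrArg (fun T : H →L[ℂ] H => T k) hall
      simpa [inflate_apply, prj_coe] using this
  have hmasa : ∀ T ∈ cornerVN M hp, (∀ a ∈ cornerAlg hp hpA, a * T = T * a) →
      T ∈ cornerAlg hp hpA := by
    intro T hT hc
    refine hA.mem_of_comm _ ((mem_cornerVN hp hpM).1 hT) fun g hg => ?_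
    have hgp : p * g * p = g * p := by
      rw [hA.comm _ hpA _ hg, mul_assoc, hp.isIdempotentElem.eq]
    have hcg : compress hp g ∈ cornerAlg hp hpA := by
      show inflate hp _ ∈ A
      rw [inflate_compress, hgp]; exact mul_mem hg hpA
    have h := congrArg (inflate hp) (hc _ hcg)
    rw [inflate_mul, inflate_mul, inflate_compress, hgp] at h
    rw [mul_assoc, proj_mul_inflate] at h
    rw [hA.comm _ hg _ hpA, ← mul_assoc, inflate_mul_proj] at h
    exact h
  have hcomm : ∀ a ∈ cornerAlg hp hpA, ∀ b ∈ cornerAlg hp hpA, a * b = b * a := by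
    intro a ha b hb
    have h := hA.comm _ ha _ hb
    rw [Commute, SemiconjBy, ← inflate_mul, ← inflate_mul] at h
    ext1 k
    apply Subtype.ext
    have := congrArg (fun T : H →L[ℂ] H => T k) h
    simpa [inflate_apply, prj_coe] using this
  have hxc : compress hp y ∈ cornerVN M hp := (mem_cornerVN hp hpM).2 (by
    rw [inflate_compress]; exact mul_mem (mul_mem hpM hy) hpM)
  have hxs : IsSelfAdjoint (compress hp y) := by
    rw [IsSelfAdjoint, compress_star, hys.star_eq]
  obtain ⟨P, a, q, hP, hPo, hPs, ha, has, han, hq, hqp, hqF, hqb⟩ :=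
    soPavableIn_of_state (cornerVN M hp) (cornerAlg hp hpA)
      (fun a ha => (mem_cornerVN hp hpM).2 (hA.le _ ha)) hmasa hcomm hη hε hpav hxc hxs
      (F.image (prj hp)) δ hδ
  refine ⟨fun i => inflate hp (P i), inflate hp a, inflate hp q, ⟨fun i => (hP i).1,
    fun i => inflate_isStarProjection hp (hP i).2, fun i j hij => ?_, ?_⟩, ha, ?_, ?_,
    inflate_mul_proj hp a, proj_mul_inflate hp a, (mem_cornerVN hp hpM).1 hq,
    inflate_isStarProjection hp hqp, inflate_mul_proj hp q, proj_mul_inflate hp q,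
    fun v hv => ?_, ?_⟩
  · rw [← inflate_mul, hPo i j hij, inflate_zero]
  · rw [← inflate_sum, hPs, inflate_one]
  · rw [IsSelfAdjoint, ← inflate_star, has.star_eq]
  · exact (norm_inflate_le hp a).trans (han.trans (norm_compress_le hp y))
  · have := hqF _ (Finset.mem_image_of_mem _ hv)
    rw [Submodule.coe_norm] at this
    exact this
  · have hP' : ∀ i, inflate hp (P i * compress hp y * P i) =
        inflate hp (P i) * y * inflate hp (P i) := fun i => by
      rw [inflate_mul, inflate_mul, inflate_compress, ← mul_assoc, ← mul_assoc,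
        inflate_mul_proj, mul_assoc (inflate hp (P i) * y) p, proj_mul_inflate]
    have e : inflate hp (q * ((∑ i, P i * compress hp y * P i) - a) * q) =
        inflate hp q * (pinch (fun i => inflate hp (P i)) y - inflate hp a) * inflate hp q := by
      rw [inflate_mul, inflate_mul, inflate_sub, inflate_sum]
      simp only [hP', pinch]
    rw [← e]
    exact (norm_inflate_le hp _).trans (hqb.trans
      (mul_le_mul_of_nonneg_left (norm_compress_le hp y) hε.le))


end Vale.Agent.P078.AllMasa
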